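import Vale.Agent.P141.PL.H588.Asm
import Vale.Agent.P141.H317.Chain

/-!
# P141, block B4: from the static to the moving form
-/

namespace Vale.Agent.P141.PL.H588

open Finset Matrix Vale.Agent.P075 Vale.Agent.P141.PL

noncomputable section

theorem mov_of_fun {C : ℝ} (hC : 0 ≤ C) (h : StFun C) : StMov (3 * C) := by
  intro N R S T c hc F H J hJ D0 D hD0 hD
  obtain ⟨B, hB0, hB1, hB2, hB3⟩ := h N R S T c hc
  have hq : ∀ g : (ℤ → ℤ → ℝ) × (ℤ → ℤ → ℝ), 0 ≤ C * (sq N R S g.1 + sq N T S g.2) := fun g =>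
    mul_nonneg hC (add_nonneg (sq_nonneg' ..) (sq_nonneg' ..))
  have hmono : ∀ (t : ℕ) (v : (ℤ → ℤ → ℝ) × (ℤ → ℤ → ℝ)), t < N →
      B (N - t) v ≤ B (N - (t + 1)) v := by
    intro t v ht
    have h1 := hB1 (N - (t + 1)) v (by omega)
    have h2 := mnk_nonneg N R S T (N - (t + 1)) (c (N - (t + 1) + 1)) v.1 v.2
    have e : N - (t + 1) + 1 = N - t := by omega
    rw [e] at h1 h2
    linarith
  have key := Vale.Agent.P141.H317.chain_fun' (V := (ℤ → ℤ → ℝ) × (ℤ → ℤ → ℝ)) N
    (fun t v => B (N - t) v) (fun g => C * (sq N R S g.1 + sq N T S g.2)) hq hmono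
    (fun k l v w hkl hl => hB3 (N - l) (N - k) v w (by omega) (by omega))
    (fun t => (F (N - t), H (N - t))) J hJ (C * D) (by
      intro j hj
      rw [← mul_sum]
      exact mul_le_mul_of_nonneg_left (hD j hj) hC)
  have hgap : ∀ t ∈ range N, mnk N R S T (N - t) (c (N - t)) (F (N - t)) (H (N - t))
      ≤ B (N - (t + 1)) (F (N - t), H (N - t)) - B (N - t) (F (N - t), H (N - t)) := by
    intro t ht
    have ht' := mem_range.mp ht
    have h1 := hB1 (N - (t + 1)) (F (N - t), H (N - t)) (by omega)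
    have e : N - (t + 1) + 1 = N - t := by omega
    rw [e] at h1
    linarith
  have hsum : ∑ k ∈ Icc 1 N, mnk N R S T k (c k) (F k) (H k)
      = ∑ t ∈ range N, mnk N R S T (N - t) (c (N - t)) (F (N - t)) (H (N - t)) := by
    refine sum_nbij' (fun k => N - k) (fun t => N - t) ?_ ?_ ?_ ?_ ?_
    · intro k hk
      have := mem_Icc.mp hk
      rw [mem_range]; omega
    · intro t ht
      have := mem_range.mp ht
      rw [mem_Icc]; omega
    · intro k hk
      have := mem_Icc.mp hk
      omega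
    · intro t ht
      have := mem_range.mp ht
      omega
    · intro k hk
      have := mem_Icc.mp hk
      have e : N - (N - k) = k := by omega
      simp only [e]
  rw [hsum]
  refine (sum_le_sum hgap).trans (key.trans ?_)
  simp only [Nat.sub_zero, Nat.sub_self]
  have h5 := hB2 (F N, H N)
  have h6 := hB0 N (F N, H N)
  have h7 := mul_le_mul_of_nonneg_left hD0 hC
  simp only at h5
  have h8 : 3 * (J : ℝ) * ((J : ℝ) + 1) * (C * D) = 3 * C * (J * (J + 1)) * D := by ring
  rw [h8]
  linarith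

end

end Vale.Agent.P141.PL.H588
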