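import Vale.Agent.P141.PL.Defs
import Vale.Agent.P075.Bdl.B1

/-!
# P141, block B4: the fixed-grid functional of a pair of functions with a common middle variable

`F (x, y)`, `H (z, y)`: `x`, `z` outer variables, `y` the common middle variable.
-/

namespace Vale.Agent.P141.PL.H588

open Finset Matrix Vale.Agent.P075 Vale.Agent.P141.PL

noncomputable section

/-- Samples of `F (outer, middle)` on the box of corner `(p, q)`. -/
def smp (a b : ℕ) (F : ℤ → ℤ → ℝ) (p q : ℤ) : Matrix (Ix a) (Ix b) ℝ :=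
  fun i j => F (p + val a i) (q + val b j)

/-- Normalised Gram matrix in the middle variable, on the block of outer scale `a` and index `n`,
middle scale `b` and index `m`. -/
def Xg (a b : ℕ) (F : ℤ → ℤ → ℝ) (n m : ℤ) : Matrix (Ix b) (Ix b) ℝ :=
  ((2 : ℝ) ^ a * 2 ^ b)⁻¹ •
    ((smp a b F (2 ^ a * n) (2 ^ b * m))ᵀ * smp a b F (2 ^ a * n) (2 ^ b * m))

/-- The Haar signs of the middle variable as a diagonal matrix. -/
def hd : (k : ℕ) → Matrix (Ix k) (Ix k) ℝ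
  | 0 => 1
  | (k + 1) => rad (Ix k)

/-- Energy: outer root `(N, R)`, middle root `(N, S)`, outer scale `a`, middle scale `b`. -/
def en (N : ℕ) (R S : ℤ) (a b : ℕ) (F : ℤ → ℤ → ℝ) : ℝ :=
  (2 : ℝ) ^ a * 2 ^ b * ∑ m ∈ iv (N - b) S, ∑ n ∈ iv (N - a) R, GX (Xg a b F n m)

/-- Mixed energy at scale `k` on the plane `n + m + n' = c`. Outer roots `R` (of `F`), `T` (of
`H`), middle root `S`. -/
def Mk (N : ℕ) (R S T : ℤ) (k : ℕ) (c : ℤ) (F H : ℤ → ℤ → ℝ) : ℝ :=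
  (4 : ℝ) ^ k * ∑ m ∈ iv (N - k) S, ∑ n ∈ iv (N - k) R,
    if c - m - n ∈ iv (N - k) T then
      (phi (Xg k k F n m) * phi (Xg k k H (c - m - n) m)).trace else 0

/-- Main term at scale `k` on the plane `n + m + n' = c`. -/
def mnk (N : ℕ) (R S T : ℤ) (k : ℕ) (c : ℤ) (F H : ℤ → ℤ → ℝ) : ℝ :=
  (4 : ℝ) ^ k * ∑ m ∈ iv (N - k) S, ∑ n ∈ iv (N - k) R,
    if c - m - n ∈ iv (N - k) T then
      (phi (Xg k k F n m) * (hd k * phi (Xg k k H (c - m - n) m) * hd k)).trace else 0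

/-- The `L²` sum over the root square. -/
def sq (N : ℕ) (R S : ℤ) (F : ℤ → ℤ → ℝ) : ℝ := ∑ y ∈ iv N S, ∑ x ∈ iv N R, F x y ^ 2

/-- Admissible planes: `c k - 2 c (k+1)` between `0` and `3` (for `c k = o - 2 - x₀ / 2 ^ k`). -/
def Pl (c : ℕ → ℤ) : Prop := ∀ k, 0 ≤ c k - 2 * c (k + 1) ∧ c k - 2 * c (k + 1) ≤ 3

/-- **B4, static form**: for every pair `F`, `H`. -/
def StFun (C : ℝ) : Prop := ∀ (N : ℕ) (R S T : ℤ) (c : ℕ → ℤ), Pl c →
  ∃ B : ℕ → (ℤ → ℤ → ℝ) × (ℤ → ℤ → ℝ) → ℝ,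
    (∀ k f, 0 ≤ B k f) ∧
    (∀ k f, k < N → B (k + 1) f + mnk N R S T (k + 1) (c (k + 1)) f.1 f.2 ≤ B k f) ∧
    (∀ f, B 0 f ≤ C * (sq N R S f.1 + sq N T S f.2)) ∧
    ∀ k l f g, k ≤ l → l ≤ N → Real.sqrt (B k (f + g) - B l (f + g))
      ≤ Real.sqrt (B k f - B l f) + Real.sqrt (C * (sq N R S g.1 + sq N T S g.2))

/-- **B4, moving form**: inputs `F k`, `H k` at scale `k`, windows in the time `N - k`. -/
def StMov (C : ℝ) : Prop := ∀ (N : ℕ) (R S T : ℤ) (c : ℕ → ℤ), Pl c →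
  ∀ (F H : ℕ → ℤ → ℤ → ℝ) (J : ℕ), N ≤ 2 ^ J → ∀ D0 D : ℝ,
    sq N R S (F N) + sq N T S (H N) ≤ D0 →
    (∀ j, j < J → ∑ i ∈ range (2 ^ (J - 1 - j)),
      (sq N R S (F (N - min ((2 * i + 1) * 2 ^ j) N) - F (N - min ((2 * i) * 2 ^ j) N))
        + sq N T S (H (N - min ((2 * i + 1) * 2 ^ j) N) - H (N - min ((2 * i) * 2 ^ j) N))) ≤ D) →
    ∑ k ∈ Icc 1 N, mnk N R S T k (c k) (F k) (H k) ≤ C * D0 + C * (J * (J + 1)) * D

end

end Vale.Agent.P141.PL.H588
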