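import Vale.Agent.P141.PL.H588.Mov
import Vale.Agent.P141.PL.H978.Tang

/-!
# P141, block B4: the theorems `StFun` and `StMov`
-/

namespace Vale.Agent.P141.PL.H588

open Finset Matrix Vale.Agent.P075 Vale.Agent.P141.PL Vale.Agent.P141.PL.H978

noncomputable section

theorem sum_geo_le (n : ℕ) : ∑ r ∈ range n, (3 / 4 : ℝ) ^ r ≤ 4 := by
  have h2 : ∑ r ∈ range n, (3 / 4 : ℝ) ^ r = 4 - 4 * (3 / 4) ^ n := by
    induction n with
    | zero => simp
    | succ n ih => rw [sum_range_succ, ih, pow_succ]; ring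
  have : (0 : ℝ) ≤ (3 / 4) ^ n := by positivity
  linarith

theorem tang_BF {N k : ℕ} (hk : k ≤ N) (R S T : ℤ) (c : ℕ → ℤ) :
    Tang (QQ N R S T) 1100 (fun f => BF N R S T c k f) := by
  have h1 : Tang (QQ N R S T) 8 (fun f => Mk N R S T k (c k) f.1 f.2) := tang_Mk hk R S T (c k)
  have h2 := (tang_en_pair hk hk R S T).smul 14
  have h3 : Tang (QQ N R S T) (∑ r ∈ range (N - k + 1), |(3 / 4 : ℝ) ^ r| * 2)
      (fun f => ∑ r ∈ range (N - k + 1), (3 / 4 : ℝ) ^ r *
        (en N R S (k + r) k f.1 + en N T S (k + r) k f.2)) :=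
    Tang.sum (Q := QQ N R S T) (s := range (N - k + 1))
      fun r hr => (tang_en_pair (by have := mem_range.mp hr; omega) hk R S T).smul ((3 / 4) ^ r)
  have h4 := ((h1.add h2).add (h3.smul 64)).smul 2
  have e : (fun f : (ℤ → ℤ → ℝ) × (ℤ → ℤ → ℝ) => BF N R S T c k f) = fun f =>
      2 * (Mk N R S T k (c k) f.1 f.2 + 14 * (en N R S k k f.1 + en N T S k k f.2)
        + 64 * ∑ r ∈ range (N - k + 1), (3 / 4 : ℝ) ^ r *
        (en N R S (k + r) k f.1 + en N T S (k + r) k f.2)) := by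
    funext f
    unfold BF Wt
    rw [← sum_add_distrib]
    simp only [mul_add]
  rw [e]
  refine h4.mono fun g => mul_le_mul_of_nonneg_right ?_ (QQ_nonneg ..)
  have h5 : ∑ r ∈ range (N - k + 1), |(3 / 4 : ℝ) ^ r| * 2 ≤ 8 := by
    rw [← sum_mul]
    have h6 : ∑ r ∈ range (N - k + 1), |(3 / 4 : ℝ) ^ r| = ∑ r ∈ range (N - k + 1), (3 / 4 : ℝ) ^ r :=
      sum_congr rfl fun r _ => abs_of_nonneg (by positivity)
    rw [h6]
    linarith [sum_geo_le (N - k + 1)]
  norm_num
  norm_num at h5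
  linarith

theorem BF_anti {N : ℕ} {R S T : ℤ} {c : ℕ → ℤ} (hc : Pl c) (f : (ℤ → ℤ → ℝ) × (ℤ → ℤ → ℝ))
    {k l : ℕ} (hkl : k ≤ l) (hl : l ≤ N) : BF N R S T c l f ≤ BF N R S T c k f := by
  induction l, hkl using Nat.le_induction with
  | base => exact le_rfl
  | succ l hkl ih =>
    have h1 := BF_step (show l < N by omega) R S T hc f
    have h2 := mnk_nonneg N R S T l (c (l + 1)) f.1 f.2
    have := ih (by omega)
    linarith

/-- **Block B4, static form.** -/
theorem stFun : StFun 2200 := by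
  intro N R S T c hc
  refine ⟨BF N R S T c, BF_nonneg N R S T c, fun k f hk => BF_step hk R S T hc f, fun f => ?_, ?_⟩
  · have h1 := BF_zero_le N R S T c f
    have h2 := sq_nonneg' N R S f.1
    have h3 := sq_nonneg' N T S f.2
    linarith
  · intro k l f g hkl hl
    have h := sqrt_gap_pair (N := N) (R := R) (S := S) (T := T) (by norm_num : (0 : ℝ) ≤ 1100)
      (tang_BF (hkl.trans hl) R S T c) (tang_BF hl R S T c) (fun f => BF_anti hc f hkl hl) f g
    norm_num at h ⊢
    exact h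

/-- **Block B4, moving form.** -/
theorem stMov : StMov 6600 := by
  have h := mov_of_fun (by norm_num : (0 : ℝ) ≤ 2200) stFun
  norm_num at h
  exact h

end

end Vale.Agent.P141.PL.H588
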