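import Vale.Agent.P141.PL.H588.Split
import Vale.Agent.P141.PL.H103.Shift

/-!
# P141, block B4: the functional and its step
-/

namespace Vale.Agent.P141.PL.H588

open Finset Matrix Vale.Agent.P075 Vale.Agent.P141.PL

noncomputable section

/-- weighted energies with coarser outer scales -/
def Wt (N : ℕ) (R S : ℤ) (k : ℕ) (F : ℤ → ℤ → ℝ) : ℝ :=
  ∑ r ∈ range (N - k + 1), (3 / 4 : ℝ) ^ r * en N R S (k + r) k F

theorem Wt_nonneg (N : ℕ) (R S : ℤ) (k : ℕ) (F : ℤ → ℤ → ℝ) : 0 ≤ Wt N R S k F :=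
  sum_nonneg fun r _ => mul_nonneg (by positivity) (en_nonneg ..)

theorem Wt_step {N k : ℕ} (h : k < N) (R S : ℤ) (F : ℤ → ℤ → ℝ) :
    Wt N R S (k + 1) F + H103.SE N R S k F ≤ Wt N R S k F := by
  unfold Wt H103.SE
  have e : N - (k + 1) + 1 = N - k := by omega
  have e2 : k + (N - k) = N := by omega
  rw [e, sum_range_succ, e2]
  have h1 : ∑ r ∈ range (N - k), (3 / 4 : ℝ) ^ r * en N R S (k + 1 + r) (k + 1) F
      ≤ ∑ r ∈ range (N - k), (3 / 4 : ℝ) ^ r * en N R S (k + r + 1) k F := by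
    refine sum_le_sum fun r _ => mul_le_mul_of_nonneg_left ?_ (by positivity)
    rw [show k + 1 + r = k + r + 1 by ring]
    exact en_col_le h R S _ F
  have h2 : ∑ r ∈ range (N - k), (3 / 4 : ℝ) ^ r * (en N R S (k + r) k F - en N R S (k + r + 1) k F)
      = ∑ r ∈ range (N - k), (3 / 4 : ℝ) ^ r * en N R S (k + r) k F
        - ∑ r ∈ range (N - k), (3 / 4 : ℝ) ^ r * en N R S (k + r + 1) k F := by
    rw [← sum_sub_distrib]
    exact sum_congr rfl fun r _ => by ring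
  rw [h2]
  linarith

/-- **The functional.** -/
def BF (N : ℕ) (R S T : ℤ) (c : ℕ → ℤ) (k : ℕ) (f : (ℤ → ℤ → ℝ) × (ℤ → ℤ → ℝ)) : ℝ :=
  2 * (Mk N R S T k (c k) f.1 f.2 + 14 * (en N R S k k f.1 + en N T S k k f.2)
    + 64 * (Wt N R S k f.1 + Wt N T S k f.2))

theorem Mk_nonneg (N : ℕ) (R S T : ℤ) (k : ℕ) (c : ℤ) (F H : ℤ → ℤ → ℝ) :
    0 ≤ Mk N R S T k c F H := by
  unfold Mk
  refine mul_nonneg (by positivity) (sum_nonneg fun m _ => sum_nonneg fun n _ => ?_)
  split_ifs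
  · exact mx_nonneg k k F H n (c - m - n) m
  · exact le_rfl

theorem mnk_nonneg (N : ℕ) (R S T : ℤ) (k : ℕ) (c : ℤ) (F H : ℤ → ℤ → ℝ) :
    0 ≤ mnk N R S T (k + 1) c F H := by
  rw [mnk_eq]
  refine mul_nonneg (by positivity) (sum_nonneg fun m _ => sum_nonneg fun n _ => ?_)
  split_ifs
  · exact md_nonneg k F H n (c - m - n) m
  · exact le_rfl

theorem BF_nonneg (N : ℕ) (R S T : ℤ) (c : ℕ → ℤ) (k : ℕ) (f : (ℤ → ℤ → ℝ) × (ℤ → ℤ → ℝ)) :
    0 ≤ BF N R S T c k f := by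
  unfold BF
  have h1 := Mk_nonneg N R S T k (c k) f.1 f.2
  have h2 := en_nonneg N R S k k f.1
  have h3 := en_nonneg N T S k k f.2
  have h4 := Wt_nonneg N R S k f.1
  have h5 := Wt_nonneg N T S k f.2
  positivity

/-- **Step.** -/
theorem BF_step {N k : ℕ} (h : k < N) (R S T : ℤ) {c : ℕ → ℤ} (hc : Pl c)
    (f : (ℤ → ℤ → ℝ) × (ℤ → ℤ → ℝ)) :
    BF N R S T c (k + 1) f + mnk N R S T (k + 1) (c (k + 1)) f.1 f.2 ≤ BF N R S T c k f := by
  obtain ⟨F, H⟩ := f
  have h1 := split h R S T (c (k + 1)) F H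
  have h2 := H103.shift_abs N R S T k h.le F H (fun m => c k - m)
    (fun m => 2 * (c (k + 1) - m / 2) + 1) 2 (fun m => by
      have := hc k
      rw [abs_le]
      push_cast
      constructor <;> omega)
  have h3 : (4 : ℝ) ^ k * ∑ m ∈ iv (N - k) S, al N R T k F H m (2 * (c (k + 1) - m / 2) + 1)
      ≤ Mk N R S T k (c k) F H + 4 ^ k * ∑ m ∈ iv (N - k) S,
        |H103.al N R T k F H m (2 * (c (k + 1) - m / 2) + 1) - H103.al N R T k F H m (c k - m)| := by
    rw [Mk_eq, ← mul_add, ← sum_add_distrib]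
    refine mul_le_mul_of_nonneg_left (sum_le_sum fun m _ => ?_) (by positivity)
    have := le_abs_self (al N R T k F H m (2 * (c (k + 1) - m / 2) + 1) - al N R T k F H m (c k - m))
    have e : ∀ s, H103.al N R T k F H m s = al N R T k F H m s := fun s => rfl
    rw [e, e]
    linarith
  have h4 := Wt_step h R S F
  have h5 := Wt_step h T S H
  push_cast at h2
  unfold BF
  simp only
  linarith

theorem trace_mul_le_half {n : Type*} [Fintype n] [DecidableEq n] {A B : Matrix n n ℝ}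
    (hA : Aᵀ = A) (hB : Bᵀ = B) :
    (A * B).trace ≤ (1 / 2) * (A * A).trace + (1 / 2) * (B * B).trace := by
  have h := trace_sq_nonneg (B := A - B) (by rw [transpose_sub, hA, hB])
  have e : (A - B) * (A - B) = A * A - A * B - (B * A - B * B) := by noncomm_ring
  rw [e, trace_sub, trace_sub, trace_sub, trace_mul_comm B A] at h
  linarith

theorem Mk_le (N : ℕ) (R S T : ℤ) (k : ℕ) (c : ℤ) (F H : ℤ → ℤ → ℝ) :
    Mk N R S T k c F H ≤ 2 * (en N R S k k F + en N T S k k H) := by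
  unfold Mk en
  rw [← mul_pow]
  norm_num
  rw [← mul_add, mul_left_comm]
  refine mul_le_mul_of_nonneg_left ?_ (by positivity)
  rw [← sum_add_distrib, mul_sum]
  refine sum_le_sum fun m _ => ?_
  have h := sum_refl_le (N - k) R T (c - m) (fun n => 2 * GX (Xg k k H n m))
    (fun n => by have := GX_nonneg' (Xg_psd k k H n m); positivity)
  rw [mul_add, mul_sum, mul_sum]
  refine le_trans ?_ (add_le_add_right h _)
  rw [← sum_add_distrib]
  refine sum_le_sum fun n _ => ?_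
  split_ifs with hc
  · have h1 := trace_mul_le_half (phi_symm (Xg_psd k k F n m)) (phi_symm (Xg_psd k k H (c - m - n) m))
    have h2 := phi_sq_le_GX (Xg_psd k k F n m)
    have h3 := phi_sq_le_GX (Xg_psd k k H (c - m - n) m)
    linarith
  · have := GX_nonneg' (Xg_psd k k F n m)
    linarith

theorem Wt_zero_le (N : ℕ) (R S : ℤ) (F : ℤ → ℤ → ℝ) : Wt N R S 0 F ≤ 4 * en N R S 0 0 F := by
  unfold Wt
  have h1 : ∑ r ∈ range (N - 0 + 1), (3 / 4 : ℝ) ^ r * en N R S (0 + r) 0 F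
      ≤ ∑ r ∈ range (N - 0 + 1), (3 / 4 : ℝ) ^ r * en N R S 0 0 F := by
    refine sum_le_sum fun r hr => mul_le_mul_of_nonneg_left ?_ (by positivity)
    have := mem_range.mp hr
    exact en_row_mono (by omega) (by omega) R S 0 F
  refine h1.trans ?_
  rw [← sum_mul]
  refine mul_le_mul_of_nonneg_right ?_ (en_nonneg ..)
  have h2 : ∀ n : ℕ, ∑ r ∈ range n, (3 / 4 : ℝ) ^ r = 4 - 4 * (3 / 4) ^ n := by
    intro n
    induction n with
    | zero => simp
    | succ n ih => rw [sum_range_succ, ih, pow_succ]; ring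
  rw [h2]
  have : (0 : ℝ) ≤ (3 / 4) ^ (N - 0 + 1) := by positivity
  linarith

theorem BF_zero_le (N : ℕ) (R S T : ℤ) (c : ℕ → ℤ) (f : (ℤ → ℤ → ℝ) × (ℤ → ℤ → ℝ)) :
    BF N R S T c 0 f ≤ 544 * (sq N R S f.1 + sq N T S f.2) := by
  unfold BF
  have h1 := Mk_le N R S T 0 (c 0) f.1 f.2
  have h2 := Wt_zero_le N R S f.1
  have h3 := Wt_zero_le N T S f.2
  have h4 := en_zero_le N R S f.1
  have h5 := en_zero_le N T S f.2
  linarith

theorem sq_nonneg' (N : ℕ) (R S : ℤ) (F : ℤ → ℤ → ℝ) : 0 ≤ sq N R S F :=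
  sum_nonneg fun _ _ => sum_nonneg fun _ _ => _root_.sq_nonneg _

end

end Vale.Agent.P141.PL.H588
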