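import Vale.Agent.P141.PL.H588.Gram

/-!
# P141, block B4: the trilinear local form as a trace, planes
-/

namespace Vale.Agent.P141.PL.H588

open Finset Matrix Vale.Agent.P075 Vale.Agent.P141.PL

noncomputable section

theorem hs_val (k : ℕ) (m : ℤ) (i : Ix (k + 1)) :
    hs (k + 1) (2 ^ (k + 1) * m + val (k + 1) i) = sg (k + 1) (val (k + 1) i) := by
  have h2 : (0 : ℤ) < 2 ^ k := by positivity
  have hv := val_lt (k + 1) i
  set v := val (k + 1) i
  unfold hs sg ix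
  rw [Nat.add_sub_cancel]
  have e : (2 : ℤ) ^ (k + 1) * m + (v : ℤ) = (v : ℤ) + 2 ^ k * (2 * m) := by ring
  rw [e, Int.add_mul_ediv_left _ _ h2.ne']
  by_cases h : 2 * v < 2 ^ (k + 1)
  · have h1 : (v : ℤ) / 2 ^ k = 0 := by
      refine Int.ediv_eq_zero_of_lt (by positivity) ?_
      have : v < 2 ^ k := by rw [pow_succ] at h; omega
      exact_mod_cast this
    rw [h1, if_pos h, if_pos (by omega)]
  · have h1 : (v : ℤ) / 2 ^ k = 1 := by
      have h3 : 2 ^ k ≤ v := by rw [pow_succ] at h; omega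
      have h4 : v < 2 * 2 ^ k := by rw [pow_succ] at hv; omega
      have h3' : (2 : ℤ) ^ k ≤ v := by exact_mod_cast h3
      have h4' : (v : ℤ) < 2 * 2 ^ k := by exact_mod_cast h4
      rw [Int.ediv_eq_iff_of_pos h2]
      constructor <;> linarith
    rw [h1, if_neg h, if_neg (by omega)]

/-- Samples of a square block of side `2^(k+1)`, doubled index type. -/
def sm' (k : ℕ) (F : ℤ → ℤ → ℝ) (n m : ℤ) : Matrix (Ix k ⊕ Ix k) (Ix k ⊕ Ix k) ℝ :=
  smp (k + 1) (k + 1) F (2 ^ (k + 1) * n) (2 ^ (k + 1) * m)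

/-- **The trilinear local form is the trace form of the samples.** -/
theorem tri_eq (k : ℕ) (m : Pt) (A B C : ℤ → ℤ → ℝ) :
    tri (k + 1) m A B C
      = T3 (rad (Ix k)) (sm' k A m.1 m.2.1) (sm' k B m.2.1 m.2.2) (sm' k C m.1 m.2.2)ᵀ := by
  rw [rad_diag, T3_eq_sum, tri, sum_iv]
  change ∑ i : Ix k ⊕ Ix k, _ = _
  refine sum_congr rfl fun i _ => ?_
  rw [sum_iv]
  change ∑ j : Ix k ⊕ Ix k, _ = _
  refine sum_congr rfl fun j _ => ?_
  rw [sum_iv]
  change ∑ l : Ix k ⊕ Ix k, _ = _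
  refine sum_congr rfl fun l _ => ?_
  have h1 : hs (k + 1) (2 ^ (k + 1) * m.1 + val (k + 1) i) = _ := hs_val k m.1 i
  have h2 : hs (k + 1) (2 ^ (k + 1) * m.2.1 + val (k + 1) j) = _ := hs_val k m.2.1 j
  have h3 : hs (k + 1) (2 ^ (k + 1) * m.2.2 + val (k + 1) l) = _ := hs_val k m.2.2 l
  rw [h1, h2, h3]
  change _ * _ * _ * (A _ _ * B _ _ * C _ _) = A _ _ * B _ _ * C _ _ * (_ * _ * _)
  ring

/-- Gram matrices of samples. -/
theorem Xg_gramC (k : ℕ) (F : ℤ → ℤ → ℝ) (n m : ℤ) :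
    Xg k k F n m = gramC (((4 : ℝ) ^ k)⁻¹) (smp k k F (2 ^ k * n) (2 ^ k * m)) := by
  rw [Xg, gramC, ← mul_pow]
  norm_num

theorem Xg_gramR (k : ℕ) (G : ℤ → ℤ → ℝ) (n m : ℤ) :
    Xg k k (fun x y => G y x) n m = gramR (((4 : ℝ) ^ k)⁻¹) (smp k k G (2 ^ k * m) (2 ^ k * n)) := by
  rw [Xg, gramR, ← mul_pow]
  have e : smp k k (fun x y => G y x) (2 ^ k * n) (2 ^ k * m) = (smp k k G (2 ^ k * m) (2 ^ k * n))ᵀ :=
    rfl
  rw [e, transpose_transpose]
  norm_num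

/-- Scaling a function scales its Gram matrix. -/
theorem Xg_smul (t : ℝ) (a b : ℕ) (F : ℤ → ℤ → ℝ) (n m : ℤ) :
    Xg a b (t • F) n m = t ^ 2 • Xg a b F n m := by
  ext i j
  rw [Xg_apply, Matrix.smul_apply, Xg_apply, smul_eq_mul, mul_left_comm]
  congr 1
  rw [mul_sum]
  refine sum_congr rfl fun x _ => ?_
  simp only [Pi.smul_apply, smul_eq_mul]
  ring

theorem sq_smul_fun (t : ℝ) (N : ℕ) (R S : ℤ) (F : ℤ → ℤ → ℝ) :
    sq N R S (t • F) = t ^ 2 * sq N R S F := by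
  unfold sq
  rw [mul_sum]
  refine sum_congr rfl fun y _ => ?_
  rw [mul_sum]
  refine sum_congr rfl fun x _ => ?_
  simp only [Pi.smul_apply, smul_eq_mul]
  ring

/-- **The planes of a fixed `x₀` are admissible.** -/
theorem pl_planes {o : ℤ} (ho : |o| ≤ 1) (x0 : ℤ) : Pl (fun k => o - 2 - x0 / 2 ^ k) := by
  intro k
  have h := abs_le.mp ho
  have e : x0 / 2 ^ (k + 1) = x0 / 2 ^ k / 2 := by
    rw [pow_succ, Int.ediv_ediv_of_nonneg (by positivity)]
  simp only [e]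
  constructor <;> omega

end

end Vale.Agent.P141.PL.H588
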