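import Vale.Agent.P141.PL.H588.Gram

/-!
# P141, block B4: energies
-/

namespace Vale.Agent.P141.PL.H588

open Finset Matrix Vale.Agent.P075 Vale.Agent.P141.PL

noncomputable section

/-- children of the indices of an interval -/
theorem sum_iv_succ (j : ℕ) (R : ℤ) (g : ℤ → ℝ) :
    ∑ n ∈ iv (j + 1) R, g n = ∑ n ∈ iv j R, (g (2 * n) + g (2 * n + 1)) := by
  have h2 : (0 : ℤ) < 2 ^ j := by positivity
  have hU : iv (j + 1) R = (iv j R).image (fun n => 2 * n) ∪ (iv j R).image (fun n => 2 * n + 1) := by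
    ext x
    simp only [iv, mem_union, mem_image, mem_Ico]
    constructor
    · rintro ⟨h, h'⟩
      rw [pow_succ] at h h'
      rcases Int.emod_two_eq_zero_or_one x with h0 | h0
      · left
        refine ⟨x / 2, ⟨?_, ?_⟩, by omega⟩
        · have : 2 * (x / 2) = x := by omega
          nlinarith
        · have : 2 * (x / 2) = x := by omega
          nlinarith
      · right
        refine ⟨x / 2, ⟨?_, ?_⟩, by omega⟩
        · have h3 : 2 * (x / 2) + 1 = x := by omega
          have h4 : 2 * (2 ^ j * R) ≤ 2 * (x / 2) + 1 := by rw [h3]; linarith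
          omega
        · have : 2 * (x / 2) + 1 = x := by omega
          nlinarith
    · rintro (⟨y, ⟨h, h'⟩, rfl⟩ | ⟨y, ⟨h, h'⟩, rfl⟩)
      · rw [pow_succ]
        constructor
        · nlinarith
        · nlinarith
      · rw [pow_succ]
        have h5 : y + 1 ≤ 2 ^ j * R + 2 ^ j := h'
        constructor
        · nlinarith
        · nlinarith
  have hd : Disjoint ((iv j R).image (fun n => 2 * n)) ((iv j R).image (fun n => 2 * n + 1)) := by
    rw [disjoint_left]
    intro x hx hx'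
    obtain ⟨y, _, rfl⟩ := mem_image.mp hx
    obtain ⟨z, _, hz⟩ := mem_image.mp hx'
    omega
  rw [hU, sum_union hd, sum_image, sum_image, ← sum_add_distrib]
  · intro x _ y _ h
    simp only at h
    omega
  · intro x _ y _ h
    simp only at h
    omega

theorem en_nonneg (N : ℕ) (R S : ℤ) (a b : ℕ) (F : ℤ → ℤ → ℝ) : 0 ≤ en N R S a b F := by
  unfold en
  refine mul_nonneg (by positivity) (sum_nonneg fun m _ => sum_nonneg fun n _ => ?_)
  exact GX_nonneg' (Xg_psd ..)

/-- total row defect -/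
def DL (N : ℕ) (R S : ℤ) (a b : ℕ) (F : ℤ → ℤ → ℝ) : ℝ :=
  (2 : ℝ) ^ a * 2 ^ b * ∑ m ∈ iv (N - b) S, ∑ n ∈ iv (N - (a + 1)) R, dl a b F n m

/-- total column defect -/
def CD (N : ℕ) (R S : ℤ) (a b : ℕ) (F : ℤ → ℤ → ℝ) : ℝ :=
  (2 : ℝ) ^ a * 2 ^ b * ∑ m ∈ iv (N - (b + 1)) S, ∑ n ∈ iv (N - a) R, cd a b F n m

theorem DL_nonneg (N : ℕ) (R S : ℤ) (a b : ℕ) (F : ℤ → ℤ → ℝ) : 0 ≤ DL N R S a b F :=
  mul_nonneg (by positivity) (sum_nonneg fun _ _ => sum_nonneg fun _ _ => dl_nonneg ..)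

theorem CD_nonneg (N : ℕ) (R S : ℤ) (a b : ℕ) (F : ℤ → ℤ → ℝ) : 0 ≤ CD N R S a b F :=
  mul_nonneg (by positivity) (sum_nonneg fun _ _ => sum_nonneg fun _ _ => cd_nonneg ..)

theorem row_en {N a : ℕ} (h : a < N) (R S : ℤ) (b : ℕ) (F : ℤ → ℤ → ℝ) :
    en N R S (a + 1) b F + DL N R S a b F ≤ en N R S a b F := by
  have e : N - a = (N - (a + 1)) + 1 := by omega
  unfold en DL
  rw [e]
  simp only [sum_iv_succ]
  rw [show (2 : ℝ) ^ (a + 1) * 2 ^ b = 2 ^ a * 2 ^ b * 2 by ring,
    mul_assoc ((2 : ℝ) ^ a * 2 ^ b) 2, ← mul_add]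
  refine mul_le_mul_of_nonneg_left ?_ (by positivity)
  rw [mul_sum, ← sum_add_distrib]
  refine sum_le_sum fun m _ => ?_
  rw [mul_sum, ← sum_add_distrib]
  refine sum_le_sum fun n _ => ?_
  have := row_pt a b F n m
  linarith

theorem col_en {N b : ℕ} (h : b < N) (R S : ℤ) (a : ℕ) (F : ℤ → ℤ → ℝ) :
    en N R S a (b + 1) F + CD N R S a b F ≤ en N R S a b F := by
  have e : N - b = (N - (b + 1)) + 1 := by omega
  unfold en CD
  rw [e]
  simp only [sum_iv_succ _ _ (fun m => ∑ n ∈ iv (N - a) R, GX (Xg a b F n m))]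
  rw [show (2 : ℝ) ^ a * 2 ^ (b + 1) = 2 ^ a * 2 ^ b * 2 by ring,
    mul_assoc ((2 : ℝ) ^ a * 2 ^ b) 2, ← mul_add]
  refine mul_le_mul_of_nonneg_left ?_ (by positivity)
  rw [mul_sum, ← sum_add_distrib]
  refine sum_le_sum fun m _ => ?_
  rw [mul_sum, ← sum_add_distrib, ← sum_add_distrib]
  refine sum_le_sum fun n _ => ?_
  have := col_pt a b F n m
  linarith

theorem en_row_le {N a : ℕ} (h : a < N) (R S : ℤ) (b : ℕ) (F : ℤ → ℤ → ℝ) :
    en N R S (a + 1) b F ≤ en N R S a b F := by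
  have h1 := row_en h R S b F
  have h2 := DL_nonneg N R S a b F
  linarith

theorem en_col_le {N b : ℕ} (h : b < N) (R S : ℤ) (a : ℕ) (F : ℤ → ℤ → ℝ) :
    en N R S a (b + 1) F ≤ en N R S a b F := by
  have h1 := col_en h R S a F
  have h2 := CD_nonneg N R S a b F
  linarith

theorem en_row_mono {N a a' : ℕ} (h : a ≤ a') (h' : a' ≤ N) (R S : ℤ) (b : ℕ) (F : ℤ → ℤ → ℝ) :
    en N R S a' b F ≤ en N R S a b F := by
  induction a', h using Nat.le_induction with
  | base => exact le_rfl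
  | succ k hk ih => exact (en_row_le (by omega) R S b F).trans (ih (by omega))

/-- the energy is at most the trace -/
theorem GX_le_trace {n : Type*} [Fintype n] [DecidableEq n] {X : Matrix n n ℝ}
    (hX : X.PosSemidef) : GX X ≤ X.trace := by
  have h1 := det_le_exp (res_psd hX)
  have h2 := Real.log_le_log (res_posDef hX).det_pos h1
  rw [Real.log_exp, log_det_res hX] at h2
  have h3 := (phi_psd hX).trace_nonneg
  rw [phi, trace_sub, trace_one] at h3
  rw [GX]
  linarith

/-- the energy at the finest scale is at most the square sum -/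
theorem en_zero_le (N : ℕ) (R S : ℤ) (F : ℤ → ℤ → ℝ) : en N R S 0 0 F ≤ sq N R S F := by
  unfold en sq
  simp only [pow_zero, mul_one, one_mul, Nat.sub_zero]
  refine sum_le_sum fun m _ => sum_le_sum fun n _ => ?_
  refine (GX_le_trace (Xg_psd ..)).trans ?_
  have := trace_Xg 0 0 F n m
  simp only [pow_zero, mul_one, one_mul] at this
  rw [this]
  have e : ∀ z : ℤ, iv 0 z = {z} := by
    intro z
    ext x
    simp only [iv, mem_Ico, mem_singleton, pow_zero, one_mul]
    omega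
  rw [e, e, sum_singleton, sum_singleton]

end

end Vale.Agent.P141.PL.H588
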