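import Vale.Agent.P141.PL.H588.Defs
import Vale.Agent.P075.R.Pt

/-!
# P141, block B4: Gram matrices on the integer grid and pointwise inequalities
-/

namespace Vale.Agent.P141.PL.H588

open Finset Matrix Vale.Agent.P075 Vale.Agent.P141.PL

noncomputable section

/-! ### matrices -/

theorem Xg_psd (a b : ℕ) (F : ℤ → ℤ → ℝ) (n m : ℤ) : (Xg a b F n m).PosSemidef :=
  (psd_transpose_mul (smp a b F (2 ^ a * n) (2 ^ b * m))).smul (by positivity)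

theorem Xg_apply (a b : ℕ) (F : ℤ → ℤ → ℝ) (n m : ℤ) (j j' : Ix b) :
    Xg a b F n m j j' = ((2 : ℝ) ^ a * 2 ^ b)⁻¹ *
      ∑ i : Ix a, F (2 ^ a * n + val a i) (2 ^ b * m + val b j)
        * F (2 ^ a * n + val a i) (2 ^ b * m + val b j') := by
  simp only [Xg, Matrix.smul_apply, smul_eq_mul, Matrix.mul_apply, Matrix.transpose_apply, smp]

theorem sum_Ix_succ (a : ℕ) (f : ℕ → ℝ) : ∑ i : Ix (a + 1), f (val (a + 1) i)
    = ∑ i : Ix a, f (val a i) + ∑ i : Ix a, f (2 ^ a + val a i) := by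
  have h1 : ∑ i : Ix (a + 1), f (val (a + 1) i)
      = ∑ i : Ix a ⊕ Ix a, f (val (a + 1) i) := rfl
  rw [h1, Fintype.sum_sum_type]
  rfl

theorem Xg_row (a b : ℕ) (F : ℤ → ℤ → ℝ) (n m : ℤ) :
    Xg (a + 1) b F n m = (1 / 2 : ℝ) • (Xg a b F (2 * n) m + Xg a b F (2 * n + 1) m) := by
  ext j j'
  rw [Xg_apply, Matrix.smul_apply, Matrix.add_apply, Xg_apply, Xg_apply, smul_eq_mul]
  rw [sum_Ix_succ a (fun v => F (2 ^ (a + 1) * n + (v : ℤ)) (2 ^ b * m + val b j)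
        * F (2 ^ (a + 1) * n + (v : ℤ)) (2 ^ b * m + val b j'))]
  have e0 : (2 : ℤ) ^ (a + 1) * n = 2 ^ a * (2 * n) := by ring
  have e : ∀ i : Ix a, (2 : ℤ) ^ (a + 1) * n + ((2 ^ a + val a i : ℕ) : ℤ)
      = 2 ^ a * (2 * n + 1) + val a i := by
    intro i; push_cast; ring
  simp only [e]
  simp only [e0]
  rw [← mul_add, pow_succ]
  have : ((2 : ℝ) ^ a * 2 * 2 ^ b)⁻¹ = (1 / 2) * ((2 : ℝ) ^ a * 2 ^ b)⁻¹ := by
    rw [show (2 : ℝ) ^ a * 2 * 2 ^ b = 2 * ((2 : ℝ) ^ a * 2 ^ b) by ring, mul_inv]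
    norm_num
  rw [this, mul_assoc]

/-- the Gram matrix with `2^(b+1)` columns, index type `Ix b ⊕ Ix b` -/
def Xs (a b : ℕ) (F : ℤ → ℤ → ℝ) (n m : ℤ) : Matrix (Ix b ⊕ Ix b) (Ix b ⊕ Ix b) ℝ :=
  Xg a (b + 1) F n m

theorem Xs_psd (a b : ℕ) (F : ℤ → ℤ → ℝ) (n m : ℤ) : (Xs a b F n m).PosSemidef :=
  Xg_psd a (b + 1) F n m

theorem half_pow (a b : ℕ) : ((2 : ℝ) ^ a * 2 ^ (b + 1))⁻¹ = (1 / 2) * ((2 : ℝ) ^ a * 2 ^ b)⁻¹ := by
  rw [pow_succ, show (2 : ℝ) ^ a * (2 ^ b * 2) = 2 * ((2 : ℝ) ^ a * 2 ^ b) by ring, mul_inv]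
  norm_num

theorem Xs_ll (a b : ℕ) (F : ℤ → ℤ → ℝ) (n m : ℤ) :
    (Xs a b F n m).toBlocks₁₁ = (1 / 2 : ℝ) • Xg a b F n (2 * m) := by
  ext j j'
  have h : (Xs a b F n m).toBlocks₁₁ j j' = ((2 : ℝ) ^ a * 2 ^ (b + 1))⁻¹ *
      ∑ i : Ix a, F (2 ^ a * n + val a i) (2 ^ (b + 1) * m + val b j)
        * F (2 ^ a * n + val a i) (2 ^ (b + 1) * m + val b j') :=
    Xg_apply a (b + 1) F n m (Sum.inl j) (Sum.inl j')
  rw [h, Matrix.smul_apply, Xg_apply, smul_eq_mul, half_pow, mul_assoc,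
    show (2 : ℤ) ^ (b + 1) * m = 2 ^ b * (2 * m) by ring]

theorem Xs_rr (a b : ℕ) (F : ℤ → ℤ → ℝ) (n m : ℤ) :
    (Xs a b F n m).toBlocks₂₂ = (1 / 2 : ℝ) • Xg a b F n (2 * m + 1) := by
  ext j j'
  have h : (Xs a b F n m).toBlocks₂₂ j j' = ((2 : ℝ) ^ a * 2 ^ (b + 1))⁻¹ *
      ∑ i : Ix a, F (2 ^ a * n + val a i) (2 ^ (b + 1) * m + ((2 ^ b + val b j : ℕ) : ℤ))
        * F (2 ^ a * n + val a i) (2 ^ (b + 1) * m + ((2 ^ b + val b j' : ℕ) : ℤ)) :=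
    Xg_apply a (b + 1) F n m (Sum.inr j) (Sum.inr j')
  rw [h, Matrix.smul_apply, Xg_apply, smul_eq_mul, half_pow, mul_assoc]
  have e : ∀ j : Ix b, (2 : ℤ) ^ (b + 1) * m + ((2 ^ b + val b j : ℕ) : ℤ)
      = 2 ^ b * (2 * m + 1) + val b j := by
    intro j
    push_cast; ring
  rw [e, e]

theorem Xs_split (a b : ℕ) (F : ℤ → ℤ → ℝ) (n m : ℤ) :
    Xs a b F n m + rad (Ix b) * Xs a b F n m * rad (Ix b)
      = bd (Xg a b F n (2 * m)) (Xg a b F n (2 * m + 1)) := by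
  rw [R.refl_add, Xs_ll, Xs_rr, smul_smul, smul_smul]
  norm_num

/-! ### defects -/

/-- row defect -/
def dl (a b : ℕ) (F : ℤ → ℤ → ℝ) (n m : ℤ) : ℝ :=
  (delt (Xg a b F (2 * n) m) (Xg a b F (2 * n + 1) m)).trace

/-- column defect -/
def cd (a b : ℕ) (F : ℤ → ℤ → ℝ) (n m : ℤ) : ℝ :=
  (phi (Xs a b F n m) * (rad (Ix b) * phi (Xs a b F n m) * rad (Ix b))).trace

/-- mixed density: outer scales `a`, middle scale `b` -/
def mx (a b : ℕ) (F H : ℤ → ℤ → ℝ) (n n' m : ℤ) : ℝ :=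
  (phi (Xg a b F n m) * phi (Xg a b H n' m)).trace

/-- main term density at scale `k+1` -/
def md (k : ℕ) (F H : ℤ → ℤ → ℝ) (n n' m : ℤ) : ℝ :=
  (phi (Xs (k + 1) k F n m) * (rad (Ix k) * phi (Xs (k + 1) k H n' m) * rad (Ix k))).trace

theorem dl_nonneg (a b : ℕ) (F : ℤ → ℤ → ℝ) (n m : ℤ) : 0 ≤ dl a b F n m :=
  (delt_psd (Xg_psd ..) (Xg_psd ..)).trace_nonneg

theorem cd_nonneg (a b : ℕ) (F : ℤ → ℤ → ℝ) (n m : ℤ) : 0 ≤ cd a b F n m :=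
  trace_mul_nonneg (phi_psd (Xs_psd ..)) (psd_conj_symm (phi_psd (Xs_psd ..)) rad_symm)

theorem mx_nonneg (a b : ℕ) (F H : ℤ → ℤ → ℝ) (n n' m : ℤ) : 0 ≤ mx a b F H n n' m :=
  trace_mul_nonneg (phi_psd (Xg_psd ..)) (phi_psd (Xg_psd ..))

theorem md_nonneg (k : ℕ) (F H : ℤ → ℤ → ℝ) (n n' m : ℤ) : 0 ≤ md k F H n n' m :=
  trace_mul_nonneg (phi_psd (Xs_psd ..)) (psd_conj_symm (phi_psd (Xs_psd ..)) rad_symm)

theorem GX_nonneg' {n : Type*} [Fintype n] [DecidableEq n] {X : Matrix n n ℝ}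
    (hX : X.PosSemidef) : 0 ≤ GX X := by
  have h1 := det_le_exp (posDef_one_add hX).posSemidef
  have h2 := Real.log_le_log (det_pos_one_add hX) h1
  rw [Real.log_exp, trace_add, trace_one] at h2
  rw [GX, ld]
  linarith

/-! ### pointwise inequalities -/

theorem row_pt (a b : ℕ) (F : ℤ → ℤ → ℝ) (n m : ℤ) :
    GX (Xg (a + 1) b F n m) + (1 / 2) * dl a b F n m
      ≤ (1 / 2) * (GX (Xg a b F (2 * n) m) + GX (Xg a b F (2 * n + 1) m)) := by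
  rw [Xg_row]
  exact R.GX_row (Xg_psd ..) (Xg_psd ..)

theorem col_pt (a b : ℕ) (F : ℤ → ℤ → ℝ) (n m : ℤ) :
    GX (Xg a (b + 1) F n m) + (1 / 2) * cd a b F n m
      ≤ (1 / 2) * (GX (Xg a b F n (2 * m)) + GX (Xg a b F n (2 * m + 1))) :=
  R.GX_col (Xs_psd a b F n m) (Xg_psd ..) (Xg_psd ..) (Xs_split a b F n m)

/-- middle split -/
theorem y_pt (k : ℕ) (F H : ℤ → ℤ → ℝ) (n n' m : ℤ) :
    mx (k + 1) (k + 1) F H n n' m + (1 / 2) * md k F H n n' m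
      ≤ (1 / 2) * (mx (k + 1) k F H n n' (2 * m) + mx (k + 1) k F H n n' (2 * m + 1))
        + 7 * (cd (k + 1) k F n m + cd (k + 1) k H n' m) := by
  have h := ysplit (Xs_psd (k + 1) k F n m) (Xs_psd (k + 1) k H n' m)
    (rad_symm (m := Ix k)) rad_sq
  rw [Xs_split, Xs_split, phi_bd (Xg_psd ..) (Xg_psd ..), phi_bd (Xg_psd ..) (Xg_psd ..), bd_mul,
    trace_bd] at h
  have h1 : mx (k + 1) (k + 1) F H n n' m
      = (phi (Xs (k + 1) k F n m) * phi (Xs (k + 1) k H n' m)).trace := rfl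
  rw [h1]
  simp only [mx, md, cd]
  linarith

/-- outer splits with opposite pairing -/
theorem xz_pt (k b : ℕ) (F H : ℤ → ℤ → ℝ) (n n' m : ℤ) :
    mx (k + 1) b F H n n' m
      ≤ (1 / 2) * (mx k b F H (2 * n) (2 * n' + 1) m + mx k b F H (2 * n + 1) (2 * n') m)
        + (3 / 2) * (dl k b F n m + dl k b H n' m) := by
  have h := xsplit (Xg_psd k b F (2 * n) m) (Xg_psd k b F (2 * n + 1) m)
    (Xg_psd k b H (2 * n' + 1) m) (Xg_psd k b H (2 * n') m)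
  simp only [mx, dl, Xg_row k b]
  rw [add_comm (Xg k b H (2 * n' + 1) m), delt_comm (Xg k b H (2 * n' + 1) m)] at h
  linarith

/-- difference of a child and its parent, squared -/
theorem sq_child {n : Type*} [Fintype n] [DecidableEq n] {X₀ X₁ : Matrix n n ℝ}
    (h0 : X₀.PosSemidef) (h1 : X₁.PosSemidef) :
    ((phi X₀ - phi ((1 / 2 : ℝ) • (X₀ + X₁))) * (phi X₀ - phi ((1 / 2 : ℝ) • (X₀ + X₁)))).trace
    + ((phi X₁ - phi ((1 / 2 : ℝ) • (X₀ + X₁))) * (phi X₁ - phi ((1 / 2 : ℝ) • (X₀ + X₁)))).trace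
      ≤ 4 * (delt X₀ X₁).trace := by
  have e0 : phi X₀ - phi ((1 / 2 : ℝ) • (X₀ + X₁)) = hdiff X₀ X₁ - delt X₀ X₁ := by
    simp only [delt, hdiff]; module
  have e1 : phi X₁ - phi ((1 / 2 : ℝ) • (X₀ + X₁)) = -hdiff X₀ X₁ - delt X₀ X₁ := by
    simp only [delt, hdiff]; module
  have q1 := R.delt_sq_le h0 h1
  have q2 := R.hdiff_sq_le h0 h1
  have e : (hdiff X₀ X₁ - delt X₀ X₁) * (hdiff X₀ X₁ - delt X₀ X₁)
      + (-hdiff X₀ X₁ - delt X₀ X₁) * (-hdiff X₀ X₁ - delt X₀ X₁)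
      = (2 : ℝ) • (hdiff X₀ X₁ * hdiff X₀ X₁) + (2 : ℝ) • (delt X₀ X₁ * delt X₀ X₁) := by
    simp only [two_smul]; noncomm_ring
  rw [e0, e1, ← trace_add, e, trace_add, trace_smul, trace_smul, smul_eq_mul, smul_eq_mul]
  linarith

/-- the square of `phi` is dominated by the energy -/
theorem phi_sq_le_GX {n : Type*} [Fintype n] [DecidableEq n] {X : Matrix n n ℝ}
    (hX : X.PosSemidef) : (phi X * phi X).trace ≤ 4 * GX X := by
  have h0 : (0 : Matrix n n ℝ).PosSemidef := PosSemidef.zero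
  have h := R.GX_row h0 hX
  have hp : phi (0 : Matrix n n ℝ) = 0 := by simp [phi, res]
  have hG : GX (0 : Matrix n n ℝ) = 0 := by simp [GX, ld]
  have h1 := R.hdiff_sq_le h0 hX
  have e : hdiff 0 X * hdiff 0 X = (1 / 4 : ℝ) • (phi X * phi X) := by
    rw [hdiff, hp, zero_sub, smul_neg, neg_mul_neg, smul_mul_smul_comm]
    norm_num
  rw [e, trace_smul, smul_eq_mul] at h1
  have h2 := GX_nonneg' (half_psd h0 hX)
  rw [hG] at h
  linarith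

/-- sum over the points of an interval -/
theorem sum_iv (k : ℕ) (m : ℤ) (f : ℤ → ℝ) : ∑ x ∈ iv k m, f x = ∑ i : Ix k, f (2 ^ k * m + val k i) := by
  rw [sum_val k (fun v => f (2 ^ k * m + (v : ℤ)))]
  symm
  refine sum_nbij (fun i => 2 ^ k * m + (i : ℤ)) ?_ ?_ ?_ (fun _ _ => rfl)
  · intro i hi
    have := mem_range.mp hi
    rw [iv, mem_Ico]
    constructor
    · linarith [Int.natCast_nonneg i]
    · have : (i : ℤ) < 2 ^ k := by exact_mod_cast this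
      linarith
  · intro i _ j _ h
    simpa using h
  · intro x hx
    have hx' := mem_Ico.mp (by simpa [iv] using hx)
    refine ⟨(x - 2 ^ k * m).toNat, ?_, ?_⟩
    · simp only [coe_range, Set.mem_Iio]
      zify
      rw [Int.toNat_of_nonneg (by linarith)]
      linarith
    · simp only
      rw [Int.toNat_of_nonneg (by linarith)]
      ring

/-- trace of the Gram matrix -/
theorem trace_Xg (a b : ℕ) (F : ℤ → ℤ → ℝ) (n m : ℤ) :
    (2 : ℝ) ^ a * 2 ^ b * (Xg a b F n m).trace = ∑ y ∈ iv b m, ∑ x ∈ iv a n, F x y ^ 2 := by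
  simp only [Matrix.trace, Matrix.diag_apply, Xg_apply]
  rw [← mul_sum, ← mul_assoc, mul_inv_cancel₀ (by positivity), one_mul, sum_iv]
  refine sum_congr rfl fun j _ => ?_
  rw [sum_iv]
  exact sum_congr rfl fun i _ => by rw [pow_two]

end

end Vale.Agent.P141.PL.H588
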