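import Vale.Agent.P141.PL.H588.En

/-!
# P141, block B4: the split of the mixed energy
-/

namespace Vale.Agent.P141.PL.H588

open Finset Matrix Vale.Agent.P075 Vale.Agent.P141.PL

noncomputable section

/-- correlation at a fixed middle index -/
def al (N : ℕ) (R T : ℤ) (k : ℕ) (F H : ℤ → ℤ → ℝ) (m s : ℤ) : ℝ :=
  ∑ n ∈ iv (N - k) R, if s - n ∈ iv (N - k) T then
    (phi (Xg k k F n m) * phi (Xg k k H (s - n) m)).trace else 0

theorem Mk_eq (N : ℕ) (R S T : ℤ) (k : ℕ) (c : ℤ) (F H : ℤ → ℤ → ℝ) :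
    Mk N R S T k c F H = (4 : ℝ) ^ k * ∑ m ∈ iv (N - k) S, al N R T k F H m (c - m) := rfl

theorem mem_iv_double (j : ℕ) (T x : ℤ) : 2 * x ∈ iv (j + 1) T ↔ x ∈ iv j T := by
  rw [mem_iv, mem_iv]
  unfold ix
  rw [pow_succ', ← Int.ediv_ediv_of_nonneg (by norm_num), Int.mul_ediv_cancel_left _ (by norm_num)]

theorem mem_iv_double' (j : ℕ) (T x : ℤ) : 2 * x + 1 ∈ iv (j + 1) T ↔ x ∈ iv j T := by
  rw [mem_iv, mem_iv]
  unfold ix
  rw [pow_succ', ← Int.ediv_ediv_of_nonneg (by norm_num)]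
  have : (2 * x + 1) / 2 = x := by omega
  rw [this]

/-- one term of the split at a fixed middle index: outer variables with opposite pairing -/
theorem al_split {N k : ℕ} (h : k < N) (R T : ℤ) (F H : ℤ → ℤ → ℝ) (m s : ℤ) :
    ∑ n ∈ iv (N - (k + 1)) R, (if s - n ∈ iv (N - (k + 1)) T then
      mx k k F H (2 * n) (2 * (s - n) + 1) m + mx k k F H (2 * n + 1) (2 * (s - n)) m else 0)
      = al N R T k F H m (2 * s + 1) := by
  have e : N - k = (N - (k + 1)) + 1 := by omega
  unfold al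
  rw [e, sum_iv_succ]
  refine sum_congr rfl fun n _ => ?_
  have e1 : 2 * s + 1 - 2 * n = 2 * (s - n) + 1 := by ring
  have e2 : 2 * s + 1 - (2 * n + 1) = 2 * (s - n) := by ring
  rw [e1, e2]
  simp only [mem_iv_double, mem_iv_double']
  split_ifs
  · rfl
  · simp

/-- reflected sum: every outer index of `H` occurs at most once -/
theorem sum_refl_le (j : ℕ) (R T s : ℤ) (g : ℤ → ℝ) (hg : ∀ n, 0 ≤ g n) :
    ∑ n ∈ iv j R, (if s - n ∈ iv j T then g (s - n) else 0) ≤ ∑ n' ∈ iv j T, g n' := by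
  rw [← sum_filter]
  have hi : Set.InjOn (fun n => s - n) ((iv j R).filter fun n => s - n ∈ iv j T) := by
    intro x _ y _ h
    simp only at h
    omega
  rw [← sum_image (f := g) (g := fun n => s - n) hi]
  refine sum_le_sum_of_subset_of_nonneg ?_ fun n _ _ => hg n
  intro x hx
  obtain ⟨n, hn, rfl⟩ := mem_image.mp hx
  exact (mem_filter.mp hn).2

theorem mnk_eq (N : ℕ) (R S T : ℤ) (k : ℕ) (c : ℤ) (F H : ℤ → ℤ → ℝ) :
    mnk N R S T (k + 1) c F H = (4 : ℝ) ^ (k + 1) * ∑ m ∈ iv (N - (k + 1)) S,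
      ∑ n ∈ iv (N - (k + 1)) R, if c - m - n ∈ iv (N - (k + 1)) T then
        md k F H n (c - m - n) m else 0 := rfl

theorem split {N k : ℕ} (h : k < N) (R S T : ℤ) (c : ℤ) (F H : ℤ → ℤ → ℝ) :
    Mk N R S T (k + 1) c F H + (1 / 2) * mnk N R S T (k + 1) c F H
      ≤ (4 : ℝ) ^ k * ∑ m ∈ iv (N - k) S, al N R T k F H m (2 * (c - m / 2) + 1)
        + 14 * (en N R S k k F - en N R S (k + 1) (k + 1) F
          + (en N T S k k H - en N T S (k + 1) (k + 1) H)) := by
  -- pointwise inequality on a box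
  have hbox : ∀ n n' m : ℤ, mx (k + 1) (k + 1) F H n n' m + (1 / 2) * md k F H n n' m
      ≤ (1 / 4) * ((mx k k F H (2 * n) (2 * n' + 1) (2 * m) + mx k k F H (2 * n + 1) (2 * n') (2 * m))
        + (mx k k F H (2 * n) (2 * n' + 1) (2 * m + 1)
          + mx k k F H (2 * n + 1) (2 * n') (2 * m + 1)))
        + ((3 / 4) * (dl k k F n (2 * m) + dl k k F n (2 * m + 1)) + 7 * cd (k + 1) k F n m)
        + ((3 / 4) * (dl k k H n' (2 * m) + dl k k H n' (2 * m + 1)) + 7 * cd (k + 1) k H n' m) := by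
    intro n n' m
    have h1 := y_pt k F H n n' m
    have h2 := xz_pt k k F H n n' (2 * m)
    have h3 := xz_pt k k F H n n' (2 * m + 1)
    linarith
  -- the two error densities
  set dF : ℤ → ℤ → ℝ := fun n m => (3 / 4) * (dl k k F n (2 * m) + dl k k F n (2 * m + 1))
    + 7 * cd (k + 1) k F n m with hdF
  set dH : ℤ → ℤ → ℝ := fun n m => (3 / 4) * (dl k k H n (2 * m) + dl k k H n (2 * m + 1))
    + 7 * cd (k + 1) k H n m with hdH
  have hF0 : ∀ n m, 0 ≤ dF n m := fun n m => by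
    have := dl_nonneg k k F n (2 * m)
    have := dl_nonneg k k F n (2 * m + 1)
    have := cd_nonneg (k + 1) k F n m
    simp only [hdF]; positivity
  have hH0 : ∀ n m, 0 ≤ dH n m := fun n m => by
    have := dl_nonneg k k H n (2 * m)
    have := dl_nonneg k k H n (2 * m + 1)
    have := cd_nonneg (k + 1) k H n m
    simp only [hdH]; positivity
  -- bound of the error sums by the energies
  have herr : ∀ (R' : ℤ) (G : ℤ → ℤ → ℝ), (4 : ℝ) ^ (k + 1) * ∑ m ∈ iv (N - (k + 1)) S,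
      ∑ n ∈ iv (N - (k + 1)) R', ((3 / 4) * (dl k k G n (2 * m) + dl k k G n (2 * m + 1))
        + 7 * cd (k + 1) k G n m) ≤ 14 * (en N R' S k k G - en N R' S (k + 1) (k + 1) G) := by
    intro R' G
    have r := row_en h R' S k G
    have q := col_en h R' S (k + 1) G
    have c0 := CD_nonneg N R' S (k + 1) k G
    have d0 := DL_nonneg N R' S k k G
    have e : N - k = (N - (k + 1)) + 1 := by omega
    have h4 : (4 : ℝ) ^ (k + 1) = 4 * (2 ^ k * 2 ^ k) := by
      rw [pow_succ, ← mul_pow]; norm_num; ring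
    have hL : (4 : ℝ) ^ (k + 1) * ∑ m ∈ iv (N - (k + 1)) S,
      ∑ n ∈ iv (N - (k + 1)) R', ((3 / 4) * (dl k k G n (2 * m) + dl k k G n (2 * m + 1))
        + 7 * cd (k + 1) k G n m) = 3 * DL N R' S k k G + 14 * CD N R' S (k + 1) k G := by
      unfold DL CD
      rw [e, sum_iv_succ _ _ (fun m => ∑ n ∈ iv (N - (k + 1)) R', dl k k G n m), h4]
      simp only [sum_add_distrib, ← mul_sum]
      ring
    rw [hL]
    linarith
  have e : N - k = (N - (k + 1)) + 1 := by omega
  have h4 : (4 : ℝ) ^ (k + 1) = 4 * 4 ^ k := by rw [pow_succ]; ring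
  -- main computation
  have hM : Mk N R S T (k + 1) c F H + (1 / 2) * mnk N R S T (k + 1) c F H
      = (4 : ℝ) ^ (k + 1) * ∑ m ∈ iv (N - (k + 1)) S, ∑ n ∈ iv (N - (k + 1)) R,
        if c - m - n ∈ iv (N - (k + 1)) T then
          mx (k + 1) (k + 1) F H n (c - m - n) m + (1 / 2) * md k F H n (c - m - n) m else 0 := by
    rw [mnk_eq, Mk]
    rw [← mul_assoc, mul_comm (1 / 2 : ℝ), mul_assoc, ← mul_add, mul_sum, ← sum_add_distrib]
    congr 1
    refine sum_congr rfl fun m _ => ?_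
    rw [mul_sum, ← sum_add_distrib]
    refine sum_congr rfl fun n _ => ?_
    split_ifs
    · rfl
    · simp
  have hA : (4 : ℝ) ^ k * ∑ m ∈ iv (N - k) S, al N R T k F H m (2 * (c - m / 2) + 1)
      = (4 : ℝ) ^ (k + 1) * ∑ m ∈ iv (N - (k + 1)) S, ∑ n ∈ iv (N - (k + 1)) R,
        if c - m - n ∈ iv (N - (k + 1)) T then (1 / 4) *
          ((mx k k F H (2 * n) (2 * (c - m - n) + 1) (2 * m)
            + mx k k F H (2 * n + 1) (2 * (c - m - n)) (2 * m))
          + (mx k k F H (2 * n) (2 * (c - m - n) + 1) (2 * m + 1)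
            + mx k k F H (2 * n + 1) (2 * (c - m - n)) (2 * m + 1))) else 0 := by
    rw [e, sum_iv_succ, h4, mul_assoc, mul_comm (4 : ℝ), mul_assoc]
    congr 1
    rw [sum_mul]
    refine sum_congr rfl fun m _ => ?_
    have e1 : 2 * m / 2 = m := by omega
    have e2 : (2 * m + 1) / 2 = m := by omega
    rw [e1, e2, ← al_split h, ← al_split h, ← sum_add_distrib, sum_mul]
    refine sum_congr rfl fun n _ => ?_
    split_ifs
    · ring
    · simp
  rw [hM, hA]
  have hsum : ∑ m ∈ iv (N - (k + 1)) S, ∑ n ∈ iv (N - (k + 1)) R,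
        (if c - m - n ∈ iv (N - (k + 1)) T then
          mx (k + 1) (k + 1) F H n (c - m - n) m + (1 / 2) * md k F H n (c - m - n) m else 0)
      ≤ (∑ m ∈ iv (N - (k + 1)) S, ∑ n ∈ iv (N - (k + 1)) R,
        if c - m - n ∈ iv (N - (k + 1)) T then (1 / 4) *
          ((mx k k F H (2 * n) (2 * (c - m - n) + 1) (2 * m)
            + mx k k F H (2 * n + 1) (2 * (c - m - n)) (2 * m))
          + (mx k k F H (2 * n) (2 * (c - m - n) + 1) (2 * m + 1)
            + mx k k F H (2 * n + 1) (2 * (c - m - n)) (2 * m + 1))) else 0)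
        + (∑ m ∈ iv (N - (k + 1)) S, ∑ n ∈ iv (N - (k + 1)) R, dF n m)
        + ∑ m ∈ iv (N - (k + 1)) S, ∑ n ∈ iv (N - (k + 1)) T, dH n m := by
    rw [← sum_add_distrib, ← sum_add_distrib]
    refine sum_le_sum fun m _ => ?_
    have h5 := sum_refl_le (N - (k + 1)) R T (c - m) (fun n => dH n m) (fun n => hH0 n m)
    refine le_trans ?_ (add_le_add_right h5 _)
    rw [← sum_add_distrib, ← sum_add_distrib]
    refine sum_le_sum fun n _ => ?_
    split_ifs with hc
    · have := hbox n (c - m - n) m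
      simp only [hdF, hdH]
      linarith
    · have := hF0 n m
      linarith
  have h5 := herr R F
  have h6 := herr T H
  have h7 := mul_le_mul_of_nonneg_left hsum (by positivity : (0 : ℝ) ≤ 4 ^ (k + 1))
  rw [mul_add, mul_add] at h7
  simp only [hdF, hdH] at h7
  linarith

end

end Vale.Agent.P141.PL.H588
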